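import Vale.Agent.P211.Alg.Spectral.Weights

/-!
# P211: the uniform limit and the zero order term at a diagonal matrix
-/

open Matrix Filter
open scoped Topology

namespace Vale.Agent.P211.Spectral

noncomputable section

/-- The bound on the defect of the zero order term. -/
def reactErr (a x : ℝ) (k : ℕ) : ℝ :=
  ((6 + 12 * x) * (a + x) + |6 * x * (1 - x)|) * (3 ^ (1 / k : ℝ) - 1)

theorem tendsto_three_rpow : Tendsto (fun k : ℕ => (3 : ℝ) ^ (1 / k : ℝ)) atTop (𝓝 1) := by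
  have h := (Real.continuousAt_const_rpow (a := 3) (b := 0) (by norm_num)).tendsto.comp
    tendsto_one_div_atTop_nhds_zero_nat
  simpa [Function.comp_def] using h

theorem one_le_three_rpow (k : ℕ) : 1 ≤ (3 : ℝ) ^ (1 / k : ℝ) :=
  Real.one_le_rpow (by norm_num) (by positivity)

variable {a x : ℝ} {k : ℕ} {w : Fin 3 → ℝ}
variable (hb : ∀ i, 0 < a - w i) (hk : 1 ≤ k) (hx : ∀ i, 0 ≤ w i + x) (hx0 : ∃ i, w i + x = 0)
include hb hk hx hx0

omit hk hx in
theorem shift_top_pos : 0 < a + x := by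
  obtain ⟨i, hi⟩ := hx0
  linarith [hb i]

omit hx in
theorem top_le_F : x ≤ F a k (diagonal w) := by
  obtain ⟨i, hi⟩ := hx0
  linarith [shift_le_root hb hk i]

theorem F_le_top : F a k (diagonal w) ≤ x + (a + x) * (3 ^ (1 / k : ℝ) - 1) := by
  have h1 : ∑ i, wt a k w i * (a - w i) ≤ ∑ i, wt a k w i * (a + x) :=
    Finset.sum_le_sum fun i _ =>
      mul_le_mul_of_nonneg_left (by linarith [hx i]) (wt_nonneg hb i)
  rw [sum_wt_mul_shift hb hk, ← Finset.sum_mul] at h1
  nlinarith [mul_le_mul_of_nonneg_right (sum_wt_le hb hk) (shift_top_pos hb hx0).le]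

omit hx in
theorem sum_wt_gap_le :
    ∑ i, wt a k w i * (w i + x) ≤ (a + x) * (3 ^ (1 / k : ℝ) - 1) := by
  have h1 : ∑ i, wt a k w i * (w i + x) =
      (a + x) * ∑ i, wt a k w i - (F a k (diagonal w) + a) := by
    rw [← sum_wt_mul_shift hb hk, Finset.mul_sum, ← Finset.sum_sub_distrib]
    exact Finset.sum_congr rfl fun i _ => by ring
  rw [h1]
  nlinarith [top_le_F hb hk hx0,
    mul_le_mul_of_nonneg_left (sum_wt_le hb hk) (shift_top_pos hb hx0).le]

theorem le_DF_react (htr : w 0 + w 1 + w 2 = 0) :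
    6 * x * (1 - x) - reactErr a x k ≤ DF a k (diagonal w) (react (diagonal w)) := by
  have hx' : 0 ≤ x := by linarith [hx 0, hx 1, hx 2]
  have hS : w 0 ^ 2 + w 1 ^ 2 + w 2 ^ 2 ≤ 6 * x ^ 2 := by
    obtain ⟨i, hi⟩ := hx0
    fin_cases i <;>
    · simp at hi
      nlinarith [mul_nonneg (hx 0) (hx 1), mul_nonneg (hx 0) (hx 2), mul_nonneg (hx 1) (hx 2)]
  have hr : ∀ i, react (diagonal w) i i ≤
      -(6 * x * (1 - x)) + (6 + 12 * x) * (w i + x) := by
    intro i
    have e : react (diagonal w) i i =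
        6 * w i - 6 * w i ^ 2 + 2 * (w 0 ^ 2 + w 1 ^ 2 + w 2 ^ 2) := by
      simp [react, Matrix.trace, Matrix.diag, Fin.sum_univ_three]
      ring
    have hwi : w i ≤ 2 * x := by fin_cases i <;> simp <;> linarith [hx 0, hx 1, hx 2]
    rw [e]
    nlinarith [mul_nonneg (hx i) (show (0 : ℝ) ≤ w i + x by exact hx i),
      mul_nonneg (hx i) (show (0 : ℝ) ≤ 2 * x - w i by linarith)]
  have h1 : ∑ i, wt a k w i * react (diagonal w) i i ≤
      ∑ i, wt a k w i * (-(6 * x * (1 - x)) + (6 + 12 * x) * (w i + x)) :=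
    Finset.sum_le_sum fun i _ => mul_le_mul_of_nonneg_left (hr i) (wt_nonneg hb i)
  have h2 : ∑ i, wt a k w i * (-(6 * x * (1 - x)) + (6 + 12 * x) * (w i + x)) =
      -(6 * x * (1 - x)) * ∑ i, wt a k w i + (6 + 12 * x) * ∑ i, wt a k w i * (w i + x) := by
    rw [Finset.mul_sum, Finset.mul_sum, ← Finset.sum_add_distrib]
    exact Finset.sum_congr rfl fun i _ => by ring
  rw [DF_diagonal]
  have h3 := mul_le_mul_of_nonneg_left (sum_wt_gap_le hb hk hx0)
    (show (0 : ℝ) ≤ 6 + 12 * x by linarith)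
  have h4 : |(6 * x * (1 - x)) * (∑ i, wt a k w i - 1)| ≤
      |6 * x * (1 - x)| * (3 ^ (1 / k : ℝ) - 1) := by
    rw [abs_mul]
    refine mul_le_mul_of_nonneg_left (abs_le.2 ⟨?_, ?_⟩) (abs_nonneg _)
    · linarith [one_le_sum_wt hb hk, one_le_three_rpow k]
    · linarith [sum_wt_le hb hk]
  rw [reactErr]
  linarith [(abs_le.1 h4).1]

end

end Vale.Agent.P211.Spectral
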