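import Vale.Agent.P211.Alg.Spectral.Kato
import Vale.Agent.P211.Alg.Spectral.Reaction

/-!
# P211: the spectral inequalities at an arbitrary symmetric matrix
-/

open Matrix
open scoped ContDiff

namespace Vale.Agent.P211.Spectral

noncomputable section

theorem exists_diag {W : M3} (hW : W.IsSymm) :
    ∃ (R : M3) (w : Fin 3 → ℝ), R.transpose * R = 1 ∧ R.det = 1 ∧ W = conj R (diagonal w) := by
  have hH : W.IsHermitian := hW
  have e := hH.spectral_theorem
  rw [Unitary.conjStarAlgAut_apply, star_eq_conjTranspose, conjTranspose_eq_transpose_of_trivial]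
    at e
  set U : M3 := (hH.eigenvectorUnitary : M3) with hU
  have hUU : U.transpose * U = 1 := by
    have := Unitary.coe_star_mul_self hH.eigenvectorUnitary
    rwa [star_eq_conjTranspose, conjTranspose_eq_transpose_of_trivial] at this
  have hsq : U.det * U.det = 1 := by
    have := congrArg Matrix.det hUU
    rwa [det_mul, det_transpose, det_one] at this
  set s : Fin 3 → ℝ := ![U.det, 1, 1] with hs
  refine ⟨U * diagonal s, hH.eigenvalues, ?_, ?_, ?_⟩
  · rw [transpose_mul, Matrix.mul_assoc, ← Matrix.mul_assoc U.transpose, hUU, Matrix.one_mul,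
      diagonal_transpose, diagonal_mul_diagonal, ← diagonal_one]
    congr 1
    funext i
    fin_cases i <;> simp [hs, hsq]
  · simp [det_diagonal, Fin.prod_univ_three, hs, hsq]
  · conv_lhs => rw [e]
    simp only [conj, transpose_mul, diagonal_transpose, Matrix.mul_assoc]
    rw [← Matrix.mul_assoc (diagonal s) (diagonal hH.eigenvalues), diagonal_mul_diagonal,
      ← Matrix.mul_assoc (diagonal _) (diagonal s), diagonal_mul_diagonal]
    congr 2
    congr 1
    funext i
    fin_cases i <;> simp [hs, mul_comm, mul_left_comm, hsq]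

theorem comb_mul {J : Fin 3 → M4} (hJ : IsTriple J) (p q : Fin 3 → ℝ) :
    (∑ l, p l • J l) * (∑ l, q l • J l) =
      -(p 0 * q 0 + p 1 * q 1 + p 2 * q 2) • (1 : M4) + ((p 1 * q 2 - p 2 * q 1) • J 0 +
        (p 2 * q 0 - p 0 * q 2) • J 1 + (p 0 * q 1 - p 1 * q 0) • J 2) := by
  simp only [Fin.sum_univ_three, Matrix.add_mul, Matrix.mul_add, Matrix.smul_mul, Matrix.mul_smul,
    hJ.sq, hJ.mul01, hJ.mul12, hJ.mul20, hJ.mul10, hJ.mul21, hJ.mul02]
  module

theorem IsTriple.rotate {J : Fin 3 → M4} (hJ : IsTriple J) {R : M3}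
    (hR : R.transpose * R = 1) (hdet : R.det = 1) :
    IsTriple fun i => ∑ l, R l i • J l := by
  have hadj : R.adjugate = R.transpose := by
    have h := R.adjugate_mul
    rw [hdet, one_smul] at h
    calc R.adjugate = R.adjugate * (R * R.transpose) := by rw [mul_eq_one_comm.1 hR, Matrix.mul_one]
      _ = R.transpose := by rw [← Matrix.mul_assoc, h, Matrix.one_mul]
  have ha : ∀ i j, R.adjugate i j = R j i := fun i j => by rw [hadj, transpose_apply]
  have hortho : ∀ i j, R 0 i * R 0 j + R 1 i * R 1 j + R 2 i * R 2 j = (1 : M3) i j := by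
    intro i j
    rw [← hR]
    simp [mul_apply, Fin.sum_univ_three]
  rw [adjugate_fin_three] at ha
  have a00 := ha 0 0
  have a01 := ha 0 1
  have a02 := ha 0 2
  have a10 := ha 1 0
  have a11 := ha 1 1
  have a12 := ha 1 2
  have a20 := ha 2 0
  have a21 := ha 2 1
  have a22 := ha 2 2
  simp [Matrix.of_apply] at a00 a01 a02 a10 a11 a12 a20 a21 a22
  refine ⟨fun i => ?_, fun i => ?_, ?_, ?_, ?_⟩
  · simp [transpose_sum, hJ.skew]
  · rw [comb_mul hJ, hortho, one_apply_eq]
    module
  all_goals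
    rw [comb_mul hJ, hortho, one_apply_ne (by decide), neg_zero, zero_smul, zero_add,
      Fin.sum_univ_three]
    congr 2 <;> congr 1 <;> linarith

variable {a x : ℝ} {k : ℕ} {W : M3}

theorem posDef_conj {R : M3} (hR : R.transpose * R = 1) {A : M3} :
    (conj R A).PosDef ↔ A.PosDef := by
  have hu : IsUnit R := isUnit_iff_exists.2 ⟨R.transpose, mul_eq_one_comm.1 hR, hR⟩
  simpa [conj, star_eq_conjTranspose, conjTranspose_eq_transpose_of_trivial] using
    hu.posDef_star_right_conjugate_iff (x := A)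

theorem posSemidef_conj {R : M3} (hR : R.transpose * R = 1) {A : M3} :
    (conj R A).PosSemidef ↔ A.PosSemidef := by
  have hu : IsUnit R := isUnit_iff_exists.2 ⟨R.transpose, mul_eq_one_comm.1 hR, hR⟩
  simpa [conj, star_eq_conjTranspose, conjTranspose_eq_transpose_of_trivial] using
    hu.posSemidef_star_right_conjugate_iff (x := A)

/-- The eigenvalue data of a symmetric matrix with positive definite shift. -/
theorem exists_data (hW : W.IsSymm) (hpd : (shift a W).PosDef) :
    ∃ (R : M3) (w : Fin 3 → ℝ), R.transpose * R = 1 ∧ R.det = 1 ∧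
      W = conj R (diagonal w) ∧ ∀ i, 0 < a - w i := by
  obtain ⟨R, w, hR, hd, rfl⟩ := exists_diag hW
  refine ⟨R, w, hR, hd, rfl, ?_⟩
  rwa [shift_conj hR, posDef_conj hR, shift_diagonal, posDef_diagonal_iff] at hpd

theorem trPow_pos (hW : W.IsSymm) (hpd : (shift a W).PosDef) : 0 < trPow a k W := by
  obtain ⟨R, w, hR, -, rfl, hb⟩ := exists_data hW hpd
  rw [trPow_conj hR, trPow_diagonal]
  exact psum_pos hb

theorem D2F_nonneg (hk : 2 ≤ k) (hW : W.IsSymm) (hpd : (shift a W).PosDef) {H : M3}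
    (hH : H.IsSymm) : 0 ≤ D2F a k W H := by
  obtain ⟨R, w, hR, -, rfl, hb⟩ := exists_data hW hpd
  have hT : R.transpose.transpose * R.transpose = 1 := by
    rw [transpose_transpose, mul_eq_one_comm.1 hR]
  rw [← D2F_conj (a := a) (k := k) hT]
  have e : conj R.transpose (conj R (diagonal w)) = diagonal w := by
    simp only [conj, transpose_transpose, ← Matrix.mul_assoc, hR, Matrix.one_mul]
    rw [Matrix.mul_assoc, hR, Matrix.mul_one]
  rw [e]
  refine D2F_nonneg_diagonal hb hk ?_
  simp only [IsSymm, conj, transpose_mul, transpose_transpose, hH.eq, Matrix.mul_assoc]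

theorem DF_self_le_F (hk : 1 ≤ k) (ha : 0 ≤ a) (hW : W.IsSymm) (hpd : (shift a W).PosDef) :
    DF a k W W ≤ F a k W := by
  obtain ⟨R, w, hR, -, rfl, hb⟩ := exists_data hW hpd
  rw [DF_conj hR, F_conj hR, DF_self_eq hb hk]
  nlinarith [one_le_sum_wt hb hk]

theorem DF_self_nonneg (hW : W.IsSymm) (hpd : (shift a W).PosDef) (htr : W.trace = 0) :
    0 ≤ DF a k W W := by
  obtain ⟨R, w, hR, -, rfl, hb⟩ := exists_data hW hpd
  rw [trace_conj hR, trace_diagonal, Fin.sum_univ_three] at htr
  rw [DF_conj hR]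
  exact DF_self_nonneg_diagonal hb htr

/-- The refined Kato inequality. -/
theorem kato (hk : 2 ≤ k) (hW : W.IsSymm) (hpd : (shift a W).PosDef) (htr : W.trace = 0)
    {J : Fin 3 → M4} (hJ : IsTriple J) (H : Fin 4 → M3) (hH : ∀ m, (H m).IsSymm)
    (hdiv : ∀ i, ∑ j, J j *ᵥ (fun m => H m i j) = 0) :
    2 / 3 * ∑ m, DF a k W (H m) ^ 2 ≤ DF a k W W * ∑ m, D2F a k W (H m) := by
  obtain ⟨R, w, hR, hd, rfl, hb⟩ := exists_data hW hpd
  rw [trace_conj hR, trace_diagonal, Fin.sum_univ_three] at htr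
  set H' : Fin 4 → M3 := fun m => conj R.transpose (H m) with hH'
  have hback : ∀ m, H m = conj R (H' m) := by
    intro m
    simp only [hH', conj, transpose_transpose, ← Matrix.mul_assoc, mul_eq_one_comm.1 hR,
      Matrix.one_mul]
    rw [Matrix.mul_assoc, mul_eq_one_comm.1 hR, Matrix.mul_one]
  have hs : ∀ m, (H' m).IsSymm := fun m => by
    simp only [hH', IsSymm, conj, transpose_mul, transpose_transpose, (hH m).eq, Matrix.mul_assoc]
  have hdiv' : ∀ i, ∑ j, (∑ l, R l j • J l) *ᵥ (fun m => H' m i j) = 0 := by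
    intro i
    have e : ∀ l, (fun m => ∑ j, R l j * H' m i j) = ∑ p, R p i • fun m => H m p l := by
      intro l
      funext m
      have h1 : (H' m * R.transpose) i l = (R.transpose * H m) i l := by
        simp only [hH', conj, transpose_transpose, Matrix.mul_assoc, mul_eq_one_comm.1 hR,
          Matrix.mul_one]
      rw [mul_apply, mul_apply] at h1
      simpa [Finset.sum_apply, mul_comm] using h1
    calc ∑ j, (∑ l, R l j • J l) *ᵥ (fun m => H' m i j)
        = ∑ l, J l *ᵥ (fun m => ∑ j, R l j * H' m i j) := by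
          simp only [sum_mulVec, smul_mulVec, ← mulVec_smul]
          rw [Finset.sum_comm]
          simp only [← mulVec_sum]
          refine Finset.sum_congr rfl fun l _ => congrArg _ (funext fun m => ?_)
          simp [Finset.sum_apply]
      _ = ∑ p, R p i • ∑ l, J l *ᵥ (fun m => H m p l) := by
          simp only [e, mulVec_sum, mulVec_smul, Finset.smul_sum]
          rw [Finset.sum_comm]
      _ = 0 := by simp [hdiv]
  have h := kato_diagonal hb hk htr (hJ.rotate hR hd) H' hs hdiv'
  simpa only [hback, DF_conj hR, D2F_conj hR] using h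

/-- The refined Kato inequality, against `F + e`. -/
theorem kato_F (hk : 2 ≤ k) (ha : 0 ≤ a) {e : ℝ} (he : 0 ≤ e) (hW : W.IsSymm)
    (hpd : (shift a W).PosDef) (htr : W.trace = 0) {J : Fin 3 → M4} (hJ : IsTriple J)
    (H : Fin 4 → M3) (hH : ∀ m, (H m).IsSymm)
    (hdiv : ∀ i, ∑ j, J j *ᵥ (fun m => H m i j) = 0) :
    2 / 3 * ∑ m, DF a k W (H m) ^ 2 ≤ (F a k W + e) * ∑ m, D2F a k W (H m) :=
  (kato hk hW hpd htr hJ H hH hdiv).trans <| mul_le_mul_of_nonneg_right
    (by linarith [DF_self_le_F (k := k) (by omega) ha hW hpd])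
    (Finset.sum_nonneg fun m _ => D2F_nonneg hk hW hpd (hH m))

/-- Every symmetric matrix has a least eigenvalue. -/
theorem exists_isTop (hW : W.IsSymm) : ∃ x, IsTop W x := by
  obtain ⟨R, w, hR, -, rfl⟩ := exists_diag hW
  obtain ⟨i, -, hi⟩ := Finset.exists_min_image Finset.univ w Finset.univ_nonempty
  refine ⟨-w i, ?_, ?_⟩
  · rw [add_smul_one_conj hR, posSemidef_conj hR, smul_one_eq_diagonal, diagonal_add,
      posSemidef_diagonal_iff]
    exact fun j => by linarith [hi j (Finset.mem_univ j)]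
  · rw [add_smul_one_conj hR, conj, det_mul, det_mul, smul_one_eq_diagonal, diagonal_add,
      det_diagonal, Finset.prod_eq_zero (Finset.mem_univ i) (by simp)]
    simp

/-- The eigenvalue data in the form used by the diagonal lemmas. -/
theorem exists_top_data (hW : W.IsSymm) (hpd : (shift a W).PosDef) (hx : IsTop W x) :
    ∃ (R : M3) (w : Fin 3 → ℝ), R.transpose * R = 1 ∧ W = conj R (diagonal w) ∧
      (∀ i, 0 < a - w i) ∧ (∀ i, 0 ≤ w i + x) ∧ ∃ i, w i + x = 0 := by
  obtain ⟨R, w, hR, hd, rfl, hb⟩ := exists_data hW hpd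
  obtain ⟨h1, h2⟩ := hx
  rw [add_smul_one_conj hR, posSemidef_conj hR, smul_one_eq_diagonal, diagonal_add,
    posSemidef_diagonal_iff] at h1
  rw [add_smul_one_conj hR, conj, det_mul, det_mul, det_transpose, hd, one_mul, mul_one,
    smul_one_eq_diagonal, diagonal_add, det_diagonal, Finset.prod_eq_zero_iff] at h2
  obtain ⟨i, -, hi⟩ := h2
  exact ⟨R, w, hR, rfl, hb, h1, i, hi⟩

theorem isTop_le_F (hk : 1 ≤ k) (hW : W.IsSymm) (hpd : (shift a W).PosDef) (hx : IsTop W x) :
    x ≤ F a k W := by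
  obtain ⟨R, w, hR, rfl, hb, -, hx0⟩ := exists_top_data hW hpd hx
  rw [F_conj hR]
  exact top_le_F hb hk hx0

theorem F_le_isTop (hk : 1 ≤ k) (hW : W.IsSymm) (hpd : (shift a W).PosDef) (hx : IsTop W x) :
    F a k W ≤ x + (a + x) * (3 ^ (1 / k : ℝ) - 1) := by
  obtain ⟨R, w, hR, rfl, hb, h1, hx0⟩ := exists_top_data hW hpd hx
  rw [F_conj hR]
  exact F_le_top hb hk h1 hx0

theorem le_DF_react_top (hk : 1 ≤ k) (hW : W.IsSymm) (hpd : (shift a W).PosDef)
    (htr : W.trace = 0) (hx : IsTop W x) :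
    6 * x * (1 - x) - reactErr a x k ≤ DF a k W (react W) := by
  obtain ⟨R, w, hR, rfl, hb, h1, hx0⟩ := exists_top_data hW hpd hx
  rw [trace_conj hR, trace_diagonal, Fin.sum_univ_three] at htr
  rw [react_conj hR, DF_conj hR]
  exact le_DF_react hb hk h1 hx0 htr

theorem IsTop.nonneg (hx : IsTop W x) (htr : W.trace = 0) : 0 ≤ x := by
  have h := hx.1.trace_nonneg
  rw [trace_add, htr, trace_smul, trace_one] at h
  simp at h
  linarith

/-- A shift above twice the top is admissible. -/
theorem posDef_shift (hW : W.IsSymm) (htr : W.trace = 0) (hx : IsTop W x) (ha : 2 * x < a) :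
    (shift a W).PosDef := by
  obtain ⟨R, w, hR, -, rfl⟩ := exists_diag hW
  obtain ⟨h1, -⟩ := hx
  rw [add_smul_one_conj hR, posSemidef_conj hR, smul_one_eq_diagonal, diagonal_add,
    posSemidef_diagonal_iff] at h1
  rw [trace_conj hR, trace_diagonal, Fin.sum_univ_three] at htr
  rw [shift_conj hR, posDef_conj hR, shift_diagonal, posDef_diagonal_iff]
  intro i
  fin_cases i <;> simp <;> linarith [h1 0, h1 1, h1 2]

end

end Vale.Agent.P211.Spectral
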