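import Vale.Agent.P211.Alg.Spectral.Defs

/-!
# P211: first and second derivatives of `F` along a curve, smoothness, invariance
-/

open Matrix
open scoped ContDiff

namespace Vale.Agent.P211.Spectral

noncomputable section

variable {a : ℝ} {k : ℕ}

/-- The derivative of the `n`-th power at `B` in direction `H`. -/
def dpow (n : ℕ) (B H : M3) : M3 :=
  ∑ l ∈ Finset.range n, B ^ l * H * B ^ (n - 1 - l)

theorem dpow_succ (n : ℕ) (B H : M3) : dpow (n + 1) B H = dpow n B H * B + B ^ n * H := by
  simp only [dpow, Finset.sum_range_succ, Nat.add_sub_cancel, Nat.sub_self, pow_zero, mul_one,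
    Finset.sum_mul]
  congr 1
  refine Finset.sum_congr rfl fun l hl => ?_
  have hl' := Finset.mem_range.1 hl
  rw [mul_assoc _ _ B, ← pow_succ, show n - 1 - l + 1 = n - l by omega]

theorem dpow_neg (n : ℕ) (B H : M3) : dpow n B (-H) = -dpow n B H := by
  simp [dpow, Finset.sum_neg_distrib]

theorem trace_dpow (n : ℕ) (B H : M3) :
    (dpow n B H).trace = n * (B ^ (n - 1) * H).trace := by
  rw [dpow, trace_sum, Finset.sum_congr rfl (g := fun _ => (B ^ (n - 1) * H).trace),
    Finset.sum_const, Finset.card_range, nsmul_eq_mul]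
  intro l hl
  have hl' := Finset.mem_range.1 hl
  rw [trace_mul_cycle, ← pow_add, show n - 1 - l + l = n - 1 by omega]

theorem hasDerivAt_mul {A B : ℝ → M3} {A' B' : M3} {t : ℝ}
    (hA : ∀ i j, HasDerivAt (fun s => A s i j) (A' i j) t)
    (hB : ∀ i j, HasDerivAt (fun s => B s i j) (B' i j) t) (i j : Fin 3) :
    HasDerivAt (fun s => (A s * B s) i j) ((A' * B t + A t * B') i j) t := by
  simp only [mul_apply, Matrix.add_apply, ← Finset.sum_add_distrib]
  exact HasDerivAt.fun_sum fun l _ => (hA i l).mul (hB l j)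

theorem hasDerivAt_pow {B : ℝ → M3} {B' : M3} {t : ℝ}
    (hB : ∀ i j, HasDerivAt (fun s => B s i j) (B' i j) t) :
    ∀ (n : ℕ) (i j : Fin 3),
      HasDerivAt (fun s => (B s ^ n) i j) (dpow n (B t) B' i j) t
  | 0, i, j => by simpa [dpow] using hasDerivAt_const t ((1 : M3) i j)
  | n + 1, i, j => by
    simp only [pow_succ, dpow_succ]
    exact hasDerivAt_mul (hasDerivAt_pow hB n) hB i j

theorem hasDerivAt_trace {A : ℝ → M3} {A' : M3} {t : ℝ}
    (hA : ∀ i j, HasDerivAt (fun s => A s i j) (A' i j) t) :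
    HasDerivAt (fun s => (A s).trace) A'.trace t := by
  simp only [Matrix.trace, Matrix.diag]
  exact HasDerivAt.fun_sum fun i _ => hA i i

theorem hasDerivAt_shift {W : ℝ → M3} {H : M3} {t : ℝ}
    (hW : ∀ i j, HasDerivAt (fun s => W s i j) (H i j) t) (i j : Fin 3) :
    HasDerivAt (fun s => shift a (W s) i j) ((-H) i j) t := by
  simpa [shift] using (hW i j).const_sub ((a • (1 : M3)) i j)

theorem hasDerivAt_trPow {W : ℝ → M3} {H : M3} {t : ℝ}
    (hW : ∀ i j, HasDerivAt (fun s => W s i j) (H i j) t) :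
    HasDerivAt (fun s => trPow a k (W s))
      (-(k * (shift a (W t) ^ (k - 1) * H).trace)) t := by
  have h := hasDerivAt_trace (hasDerivAt_pow (hasDerivAt_shift (a := a) hW) k)
  rwa [dpow_neg, trace_neg, trace_dpow] at h

theorem hasDerivAt_trPow_rpow {W : ℝ → M3} {H : M3} {t : ℝ}
    (hW : ∀ i j, HasDerivAt (fun s => W s i j) (H i j) t) (hp : 0 < trPow a k (W t)) (r : ℝ) :
    HasDerivAt (fun s => trPow a k (W s) ^ r)
      (-(k * (shift a (W t) ^ (k - 1) * H).trace) * r * trPow a k (W t) ^ (r - 1)) t :=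
  (hasDerivAt_trPow hW).rpow_const (Or.inl hp.ne')

/-- The first derivative of `F` along a curve. -/
theorem hasDerivAt_F (hk : k ≠ 0) {W : ℝ → M3} {H : M3} {t : ℝ}
    (hW : ∀ i j, HasDerivAt (fun s => W s i j) (H i j) t) (hp : 0 < trPow a k (W t)) :
    HasDerivAt (fun s => F a k (W s)) (DF a k (W t) H) t := by
  refine ((hasDerivAt_trPow_rpow hW hp (1 / k)).sub_const a).congr_deriv ?_
  have hk' : (k : ℝ) ≠ 0 := Nat.cast_ne_zero.2 hk
  simp only [DF, grad, Matrix.smul_mul, trace_smul, smul_eq_mul]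
  field_simp

/-- The derivative of the first differential along a curve `W` with velocity `V`. -/
theorem hasDerivAt_DF (hk : 1 ≤ k) {W V : ℝ → M3} {A : M3} {t : ℝ}
    (hW : ∀ i j, HasDerivAt (fun s => W s i j) (V t i j) t)
    (hV : ∀ i j, HasDerivAt (fun s => V s i j) (A i j) t) (hp : 0 < trPow a k (W t)) :
    HasDerivAt (fun s => DF a k (W s) (V s))
      (D2F a k (W t) (V t) + DF a k (W t) A) t := by
  have h1 := hasDerivAt_trPow_rpow (a := a) hW hp (1 / k - 1)
  have h2 := hasDerivAt_trace (hasDerivAt_mul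
    (hasDerivAt_pow (hasDerivAt_shift (a := a) hW) (k - 1)) hV)
  have h3 := (h1.mul h2).neg
  simp only [DF, grad, Matrix.smul_mul, trace_smul, smul_eq_mul]
  refine h3.congr_deriv ?_
  have hk' : (k : ℝ) ≠ 0 := Nat.cast_ne_zero.2 (by omega)
  have he : (1 / (k : ℝ) - 1 - 1) = 1 / k - 2 := by ring
  rw [he, dpow_neg, Matrix.neg_mul, trace_add, trace_neg]
  simp only [D2F, dpow, Finset.sum_mul, trace_sum, Nat.sub_sub]
  norm_num only
  field_simp
  ring

theorem contDiffAt_pow {E : Type*} [NormedAddCommGroup E] [NormedSpace ℝ E] {n : WithTop ℕ∞}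
    {B : E → M3} {x : E} (hB : ∀ i j, ContDiffAt ℝ n (fun y => B y i j) x) :
    ∀ (m : ℕ) (i j : Fin 3), ContDiffAt ℝ n (fun y => (B y ^ m) i j) x
  | 0, i, j => by simpa using contDiffAt_const
  | m + 1, i, j => by
    simp only [pow_succ, mul_apply]
    exact ContDiffAt.sum fun l _ => (contDiffAt_pow hB m i l).mul (hB l j)

/-- `F` of a smooth field of matrices is smooth where the trace is positive. -/
theorem contDiffAt_F {E : Type*} [NormedAddCommGroup E] [NormedSpace ℝ E] {n : WithTop ℕ∞}
    {W : E → M3} {x : E} (hW : ∀ i j, ContDiffAt ℝ n (fun y => W y i j) x)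
    (hp : 0 < trPow a k (W x)) : ContDiffAt ℝ n (fun y => F a k (W y)) x := by
  have h : ContDiffAt ℝ n (fun y => trPow a k (W y)) x := by
    simp only [trPow, Matrix.trace, Matrix.diag]
    refine ContDiffAt.sum fun i _ => contDiffAt_pow (fun i j => ?_) k i i
    simpa [shift] using contDiffAt_const.sub (hW i j)
  exact (h.rpow_const_of_ne hp.ne').sub contDiffAt_const

section conj

variable {R : M3}

theorem conj_mul (hR : R.transpose * R = 1) (A B : M3) :
    conj R A * conj R B = conj R (A * B) := by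
  simp only [conj, Matrix.mul_assoc]
  rw [← Matrix.mul_assoc R.transpose R, hR, Matrix.one_mul]

theorem conj_one (hR : R.transpose * R = 1) : conj R 1 = 1 := by
  rw [conj, Matrix.mul_one, mul_eq_one_comm.1 hR]

theorem conj_pow (hR : R.transpose * R = 1) (A : M3) : ∀ n, conj R A ^ n = conj R (A ^ n)
  | 0 => by simp [conj_one hR]
  | n + 1 => by rw [pow_succ, pow_succ, conj_pow hR A n, conj_mul hR]

theorem trace_conj (hR : R.transpose * R = 1) (A : M3) : (conj R A).trace = A.trace := by
  rw [conj, trace_mul_cycle, hR, Matrix.one_mul]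

theorem shift_conj (hR : R.transpose * R = 1) (W : M3) :
    shift a (conj R W) = conj R (shift a W) := by
  simp only [shift, conj, Matrix.mul_sub, Matrix.sub_mul, Matrix.mul_smul, Matrix.smul_mul,
    Matrix.mul_one, mul_eq_one_comm.1 hR]

theorem trPow_conj (hR : R.transpose * R = 1) (W : M3) :
    trPow a k (conj R W) = trPow a k W := by
  rw [trPow, trPow, shift_conj hR, conj_pow hR, trace_conj hR]

theorem F_conj (hR : R.transpose * R = 1) (W : M3) : F a k (conj R W) = F a k W := by
  rw [F, F, trPow_conj hR]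

theorem DF_conj (hR : R.transpose * R = 1) (W H : M3) :
    DF a k (conj R W) (conj R H) = DF a k W H := by
  simp only [DF, grad, Matrix.smul_mul, trace_smul, trPow_conj hR, shift_conj hR, conj_pow hR,
    conj_mul hR, trace_conj hR]

theorem D2F_conj (hR : R.transpose * R = 1) (W H : M3) :
    D2F a k (conj R W) (conj R H) = D2F a k W H := by
  simp only [D2F, trPow_conj hR, shift_conj hR, conj_pow hR, conj_mul hR, trace_conj hR]

theorem react_conj (hR : R.transpose * R = 1) (W : M3) :
    react (conj R W) = conj R (react W) := by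
  simp only [react, conj_mul hR, trace_conj hR]
  simp only [conj, Matrix.mul_add, Matrix.add_mul, Matrix.mul_sub, Matrix.sub_mul,
    Matrix.mul_smul, Matrix.smul_mul, Matrix.mul_one, mul_eq_one_comm.1 hR]

theorem add_smul_one_conj (hR : R.transpose * R = 1) (W : M3) (x : ℝ) :
    conj R W + x • 1 = conj R (W + x • 1) := by
  simp only [conj, Matrix.mul_add, Matrix.add_mul, Matrix.mul_smul, Matrix.smul_mul,
    Matrix.mul_one, mul_eq_one_comm.1 hR]

end conj

end

end Vale.Agent.P211.Spectral
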