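import Vale.Agent.P211.Statement.Defs

/-!
# P211: the smooth approximation of minus the least eigenvalue

For `B = a • 1 - W` positive definite, `F a k W = (tr B^k)^(1/k) - a` is a convex function of the
symmetric matrix `W`, with first differential `DF` and second differential `D2F`.
-/

open Matrix

namespace Vale.Agent.P211.Spectral

noncomputable section

/-- The shifted matrix. -/
def shift (a : ℝ) (W : M3) : M3 := a • 1 - W

/-- The trace of the `k`-th power of the shifted matrix. -/
def trPow (a : ℝ) (k : ℕ) (W : M3) : ℝ := (shift a W ^ k).trace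

/-- The approximation of minus the least eigenvalue. -/
def F (a : ℝ) (k : ℕ) (W : M3) : ℝ := trPow a k W ^ (1 / k : ℝ) - a

/-- The gradient of `F`, up to sign. -/
def grad (a : ℝ) (k : ℕ) (W : M3) : M3 :=
  trPow a k W ^ (1 / k - 1 : ℝ) • shift a W ^ (k - 1)

/-- The first differential of `F`. -/
def DF (a : ℝ) (k : ℕ) (W H : M3) : ℝ := -(grad a k W * H).trace

/-- The second differential of `F`. -/
def D2F (a : ℝ) (k : ℕ) (W H : M3) : ℝ :=
  trPow a k W ^ (1 / k - 1 : ℝ) *
      ∑ l ∈ Finset.range (k - 1), (shift a W ^ l * H * shift a W ^ (k - 2 - l) * H).trace -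
    (k - 1) * trPow a k W ^ (1 / k - 2 : ℝ) * (shift a W ^ (k - 1) * H).trace ^ 2

/-- The zero order term of the Laplacian of the Weyl curvature when the Ricci tensor is three
times the metric. -/
def react (W : M3) : M3 := (6 : ℝ) • W - (6 : ℝ) • (W * W) + (2 * (W * W).trace) • 1

/-- `x` is minus the least eigenvalue of `W`. -/
def IsTop (W : M3) (x : ℝ) : Prop := (W + x • 1).PosSemidef ∧ (W + x • 1).det = 0

/-- The conjugate of `W` by `R`. -/
def conj (R W : M3) : M3 := R * W * R.transpose

end

end Vale.Agent.P211.Spectral
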