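import Vale.Agent.P211.Alg.Spectral.Weights

/-!
# P211: convexity of `F` and the refined Kato inequality at a diagonal matrix
-/

open Matrix

namespace Vale.Agent.P211.Spectral

noncomputable section

/-- Three skew matrices with the quaternion relations. -/
structure IsTriple (J : Fin 3 → M4) : Prop where
  skew : ∀ i, (J i).transpose = -J i
  sq : ∀ i, J i * J i = -1
  mul01 : J 0 * J 1 = J 2
  mul12 : J 1 * J 2 = J 0
  mul20 : J 2 * J 0 = J 1

namespace IsTriple

variable {J : Fin 3 → M4} (hJ : IsTriple J)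
include hJ

omit hJ in
theorem swap {A B C : M4} (hA : A.transpose = -A) (hB : B.transpose = -B)
    (hC : C.transpose = -C) (h : A * B = C) : B * A = -C := by
  have := congrArg transpose h
  rwa [transpose_mul, hA, hB, hC, Matrix.neg_mul, Matrix.mul_neg, neg_neg] at this

theorem mul10 : J 1 * J 0 = -J 2 := swap (hJ.skew 0) (hJ.skew 1) (hJ.skew 2) hJ.mul01

theorem mul21 : J 2 * J 1 = -J 0 := swap (hJ.skew 1) (hJ.skew 2) (hJ.skew 0) hJ.mul12

theorem mul02 : J 0 * J 2 = -J 1 := swap (hJ.skew 2) (hJ.skew 0) (hJ.skew 1) hJ.mul20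

theorem sum_sq_mulVec (i : Fin 3) (v : Fin 4 → ℝ) :
    ∑ m, (J i *ᵥ v) m ^ 2 = ∑ m, v m ^ 2 := by
  have h : (J i *ᵥ v) ⬝ᵥ (J i *ᵥ v) = v ⬝ᵥ v := by
    rw [dotProduct_mulVec, ← mulVec_transpose, mulVec_mulVec, hJ.skew, Matrix.neg_mul, hJ.sq,
      neg_neg, one_mulVec]
  simp only [dotProduct] at h
  simp only [pow_two]
  exact h

end IsTriple

/-- The divided difference of the gradient. -/
def ddiff (a : ℝ) (k : ℕ) (w : Fin 3 → ℝ) (i j : Fin 3) : ℝ :=
  psum a k w ^ (1 / k - 1 : ℝ) *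
    ∑ l ∈ Finset.range (k - 1), (a - w i) ^ l * (a - w j) ^ (k - 2 - l)

variable {a : ℝ} {k : ℕ} {w : Fin 3 → ℝ}

theorem ddiff_mul (i j : Fin 3) :
    ddiff a k w i j * ((a - w i) - (a - w j)) = wt a k w i - wt a k w j := by
  have h := geom_sum₂_mul (a - w i) (a - w j) (k - 1)
  rw [ddiff, wt, wt]
  simp only [Nat.sub_sub, one_add_one_eq_two] at h ⊢
  rw [mul_assoc, h]
  ring

theorem ddiff_comm (i j : Fin 3) : ddiff a k w i j = ddiff a k w j i := by
  simp only [ddiff]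
  congr 1
  have h := geom_sum₂_comm (a - w i) (a - w j) (k - 1)
  simpa only [Nat.sub_sub, one_add_one_eq_two] using h

theorem D2F_diagonal (H : M3) :
    D2F a k (diagonal w) H =
      ∑ i, ∑ j, ddiff a k w i j * (H i j * H j i) -
        (k - 1) * psum a k w ^ (1 / k - 2 : ℝ) * (∑ i, (a - w i) ^ (k - 1) * H i i) ^ 2 := by
  simp only [D2F, trPow_diagonal, shift_diagonal, diagonal_pow]
  congr 1
  · simp only [ddiff, Matrix.trace, Matrix.diag, Finset.mul_sum, Finset.sum_mul]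
    rw [Finset.sum_comm]
    refine Finset.sum_congr rfl fun i _ => ?_
    conv_rhs => rw [Finset.sum_comm]
    refine Finset.sum_congr rfl fun l _ => ?_
    rw [mul_apply, Finset.mul_sum]
    refine Finset.sum_congr rfl fun j _ => ?_
    simp only [mul_diagonal, diagonal_mul, Pi.pow_apply]
    ring
  · simp [Matrix.trace, Matrix.diag, diagonal_mul]

variable (hb : ∀ i, 0 < a - w i)
include hb

theorem ddiff_nonneg (i j : Fin 3) : 0 ≤ ddiff a k w i j :=
  mul_nonneg (Real.rpow_nonneg (psum_pos hb).le _) (Finset.sum_nonneg fun _ _ =>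
    mul_nonneg (pow_nonneg (hb i).le _) (pow_nonneg (hb j).le _))

theorem D2F_ge (hk : 2 ≤ k) {H : M3} (hH : H.IsSymm) :
    2 * (ddiff a k w 0 1 * H 0 1 ^ 2 + ddiff a k w 0 2 * H 0 2 ^ 2 +
      ddiff a k w 1 2 * H 1 2 ^ 2) ≤ D2F a k (diagonal w) H := by
  obtain ⟨m, rfl⟩ : ∃ m, k = m + 2 := ⟨k - 2, by omega⟩
  have hq : psum a (m + 2) w ^ (1 / (m + 2 : ℕ) - 1 : ℝ) =
      psum a (m + 2) w ^ (1 / (m + 2 : ℕ) - 2 : ℝ) * psum a (m + 2) w := by
    rw [← Real.rpow_add_one (psum_pos hb).ne']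
    congr 1
    ring
  have hd : ∀ i, ddiff a (m + 2) w i i =
      psum a (m + 2) w ^ (1 / (m + 2 : ℕ) - 2 : ℝ) * psum a (m + 2) w *
        ((m + 1) * (a - w i) ^ m) := by
    intro i
    rw [ddiff, hq, Finset.sum_congr rfl (g := fun _ => (a - w i) ^ m)]
    · simp
    · intro l hl
      have := Finset.mem_range.1 hl
      rw [← pow_add]
      congr 1
      omega
  rw [D2F_diagonal, Fin.sum_univ_three, Fin.sum_univ_three, Fin.sum_univ_three,
    Fin.sum_univ_three, Fin.sum_univ_three]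
  rw [hd 0, hd 1, hd 2, ddiff_comm 1 0, ddiff_comm 2 0, ddiff_comm 2 1, hH.apply 0 1,
    hH.apply 0 2, hH.apply 1 2]
  have hCS : ((a - w 0) ^ (m + 1) * H 0 0 + (a - w 1) ^ (m + 1) * H 1 1 +
      (a - w 2) ^ (m + 1) * H 2 2) ^ 2 ≤ psum a (m + 2) w *
      ((a - w 0) ^ m * H 0 0 ^ 2 + (a - w 1) ^ m * H 1 1 ^ 2 + (a - w 2) ^ m * H 2 2 ^ 2) := by
    have hp : ∀ i, 0 ≤ (a - w i) ^ m := fun i => pow_nonneg (hb i).le _
    simp only [psum, Fin.sum_univ_three, pow_add, pow_one]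
    nlinarith [mul_nonneg (mul_nonneg (hp 0) (hp 1))
        (sq_nonneg ((a - w 0) * H 1 1 - (a - w 1) * H 0 0)),
      mul_nonneg (mul_nonneg (hp 0) (hp 2))
        (sq_nonneg ((a - w 0) * H 2 2 - (a - w 2) * H 0 0)),
      mul_nonneg (mul_nonneg (hp 1) (hp 2))
        (sq_nonneg ((a - w 1) * H 2 2 - (a - w 2) * H 1 1))]
  have hQ : 0 ≤ ((m : ℝ) + 1) * psum a (m + 2) w ^ (1 / (m + 2 : ℕ) - 2 : ℝ) :=
    mul_nonneg (by positivity) (Real.rpow_nonneg (psum_pos hb).le _)
  have := mul_le_mul_of_nonneg_left hCS hQ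
  simp only [show m + 2 - 1 = m + 1 from rfl]
  push_cast at this ⊢
  linarith

theorem D2F_nonneg_diagonal (hk : 2 ≤ k) {H : M3} (hH : H.IsSymm) :
    0 ≤ D2F a k (diagonal w) H := by
  refine le_trans ?_ (D2F_ge hb hk hH)
  have := fun i j => mul_nonneg (ddiff_nonneg (k := k) hb i j) (sq_nonneg (H i j))
  linarith [this 0 1, this 0 2, this 1 2]

omit hb in
/-- Three times the weighted value of `-W` is a sum of squares. -/
theorem three_DF_self (htr : w 0 + w 1 + w 2 = 0) :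
    3 * DF a k (diagonal w) (diagonal w) =
      ddiff a k w 0 1 * ((a - w 0) - (a - w 1)) ^ 2 +
      ddiff a k w 0 2 * ((a - w 0) - (a - w 2)) ^ 2 +
      ddiff a k w 1 2 * ((a - w 1) - (a - w 2)) ^ 2 := by
  simp only [sq, ← mul_assoc, ddiff_mul]
  rw [DF_diagonal, Fin.sum_univ_three]
  simp only [diagonal_apply_eq]
  linear_combination -(wt a k w 0 + wt a k w 1 + wt a k w 2) * htr

theorem DF_self_nonneg_diagonal (htr : w 0 + w 1 + w 2 = 0) :
    0 ≤ DF a k (diagonal w) (diagonal w) := by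
  have h := three_DF_self (a := a) (k := k) htr
  have := fun i j => mul_nonneg (ddiff_nonneg (k := k) hb i j)
    (sq_nonneg ((a - w i) - (a - w j)))
  linarith [this 0 1, this 0 2, this 1 2]

/-- The refined Kato inequality at a diagonal matrix. -/
theorem kato_diagonal (hk : 2 ≤ k) (htr : w 0 + w 1 + w 2 = 0) {J : Fin 3 → M4}
    (hJ : IsTriple J) (H : Fin 4 → M3) (hH : ∀ m, (H m).IsSymm)
    (hdiv : ∀ i, ∑ j, J j *ᵥ (fun m => H m i j) = 0) :
    2 / 3 * ∑ m, DF a k (diagonal w) (H m) ^ 2 ≤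
      DF a k (diagonal w) (diagonal w) * ∑ m, D2F a k (diagonal w) (H m) := by
  set v : Fin 3 → Fin 3 → Fin 4 → ℝ := fun i j m => H m i j with hv
  have hs : ∀ i j, v i j = v j i := fun i j => funext fun m => ((hH m).apply i j).symm
  have sol : ∀ i, v i i = ∑ j ∈ Finset.univ.erase i, (J i * J j) *ᵥ v i j := by
    intro i
    have h := congrArg (J i *ᵥ ·) (hdiv i)
    simp only [mulVec_sum, mulVec_mulVec, mulVec_zero] at h
    rw [← Finset.add_sum_erase _ _ (Finset.mem_univ i), hJ.sq, neg_mulVec, one_mulVec,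
      neg_add_eq_zero] at h
    exact h
  have h0 := sol 0
  have h1 := sol 1
  have h2 := sol 2
  simp only [show (Finset.univ.erase (0 : Fin 3)) = {1, 2} by decide, Finset.mem_singleton,
    Finset.sum_insert, Finset.sum_singleton, show ((1 : Fin 3) = 2) = False by simp,
    not_false_eq_true, hJ.mul01, hJ.mul02] at h0
  simp only [show (Finset.univ.erase (1 : Fin 3)) = {0, 2} by decide, Finset.mem_singleton,
    Finset.sum_insert, Finset.sum_singleton, show ((0 : Fin 3) = 2) = False by simp,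
    not_false_eq_true, hJ.mul10, hJ.mul12, hs 1 0] at h1
  simp only [show (Finset.univ.erase (2 : Fin 3)) = {0, 1} by decide, Finset.mem_singleton,
    Finset.sum_insert, Finset.sum_singleton, show ((0 : Fin 3) = 1) = False by simp,
    not_false_eq_true, hJ.mul21, hJ.mul20, hs 2 0, hs 2 1] at h2
  set x := J 2 *ᵥ v 0 1
  set y := J 1 *ᵥ v 0 2
  set z := J 0 *ᵥ v 1 2
  have hdF : ∀ m, DF a k (diagonal w) (H m) =
      -(ddiff a k w 0 1 * ((a - w 0) - (a - w 1)) * x m +
        ddiff a k w 0 2 * ((a - w 0) - (a - w 2)) * -y m +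
        ddiff a k w 1 2 * ((a - w 1) - (a - w 2)) * z m) := by
    intro m
    have e0 := congrFun h0 m
    have e1 := congrFun h1 m
    have e2 := congrFun h2 m
    simp only [Pi.add_apply, neg_mulVec, Pi.neg_apply] at e0 e1 e2
    simp only [ddiff_mul, DF_diagonal, Fin.sum_univ_three]
    change -(_ * v 0 0 m + _ * v 1 1 m + _ * v 2 2 m) = _
    rw [e0, e1, e2]
    ring
  have hc := fun i j => ddiff_nonneg (k := k) hb i j
  have key : ∀ m, DF a k (diagonal w) (H m) ^ 2 ≤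
      (3 * DF a k (diagonal w) (diagonal w)) *
        (ddiff a k w 0 1 * x m ^ 2 + ddiff a k w 0 2 * y m ^ 2 +
          ddiff a k w 1 2 * z m ^ 2) := by
    intro m
    rw [hdF m, three_DF_self htr]
    set c1 := ddiff a k w 0 1
    set c2 := ddiff a k w 0 2
    set c3 := ddiff a k w 1 2
    set d1 := (a - w 0) - (a - w 1)
    set d2 := (a - w 0) - (a - w 2)
    set d3 := (a - w 1) - (a - w 2)
    nlinarith [mul_nonneg (mul_nonneg (hc 0 1) (hc 0 2)) (sq_nonneg (d1 * -y m - d2 * x m)),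
      mul_nonneg (mul_nonneg (hc 0 1) (hc 1 2)) (sq_nonneg (d1 * z m - d3 * x m)),
      mul_nonneg (mul_nonneg (hc 0 2) (hc 1 2)) (sq_nonneg (d2 * z m - d3 * -y m))]
  have hge := Finset.sum_le_sum fun m (_ : m ∈ Finset.univ) => D2F_ge hb hk (hH m)
  have hkey := Finset.sum_le_sum fun m (_ : m ∈ Finset.univ) => key m
  rw [← Finset.mul_sum, Finset.sum_add_distrib, Finset.sum_add_distrib, ← Finset.mul_sum,
    ← Finset.mul_sum, ← Finset.mul_sum, hJ.sum_sq_mulVec, hJ.sum_sq_mulVec,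
    hJ.sum_sq_mulVec] at hkey
  rw [← Finset.mul_sum, Finset.sum_add_distrib, Finset.sum_add_distrib, ← Finset.mul_sum,
    ← Finset.mul_sum, ← Finset.mul_sum] at hge
  have hx := DF_self_nonneg_diagonal (a := a) (k := k) hb htr
  simp only [hv] at hkey
  nlinarith [mul_le_mul_of_nonneg_left hge hx, hkey]

end

end Vale.Agent.P211.Spectral
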