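import Vale.Agent.P211.Alg.Spectral.Curve

/-!
# P211: the weights of `F` at a diagonal matrix

With `b i = a - w i > 0`, the weights `wt i = b i ^ (k-1) / (∑ b ^ k) ^ ((k-1)/k)` have sum
between `1` and `3 ^ (1/k)`.
-/

open Matrix

namespace Vale.Agent.P211.Spectral

noncomputable section

variable {a : ℝ} {k : ℕ} {w : Fin 3 → ℝ}

/-- The sum of the `k`-th powers of the shifted eigenvalues. -/
def psum (a : ℝ) (k : ℕ) (w : Fin 3 → ℝ) : ℝ := ∑ i, (a - w i) ^ k

/-- The weights, the eigenvalues of the gradient. -/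
def wt (a : ℝ) (k : ℕ) (w : Fin 3 → ℝ) (i : Fin 3) : ℝ :=
  psum a k w ^ (1 / k - 1 : ℝ) * (a - w i) ^ (k - 1)

theorem shift_diagonal : shift a (diagonal w) = diagonal fun i => a - w i := by
  rw [shift, smul_one_eq_diagonal, diagonal_sub]

theorem trPow_diagonal : trPow a k (diagonal w) = psum a k w := by
  simp [trPow, psum, shift_diagonal, diagonal_pow, trace_diagonal]

theorem DF_diagonal (H : M3) : DF a k (diagonal w) H = -∑ i, wt a k w i * H i i := by
  simp [DF, grad, Matrix.trace, Matrix.diag, trPow_diagonal, shift_diagonal, diagonal_pow,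
    diagonal_mul, wt, mul_assoc]

variable (hb : ∀ i, 0 < a - w i)
include hb

theorem psum_pos : 0 < psum a k w :=
  Finset.sum_pos (fun i _ => pow_pos (hb i) k) Finset.univ_nonempty

theorem wt_nonneg (i : Fin 3) : 0 ≤ wt a k w i :=
  mul_nonneg (Real.rpow_nonneg (psum_pos hb).le _) (pow_nonneg (hb i).le _)

theorem sum_wt_mul_shift (hk : 1 ≤ k) :
    ∑ i, wt a k w i * (a - w i) = F a k (diagonal w) + a := by
  rw [F, trPow_diagonal, sub_add_cancel]
  have h : ∀ i, wt a k w i * (a - w i) = psum a k w ^ (1 / k - 1 : ℝ) * (a - w i) ^ k := by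
    intro i
    rw [wt, mul_assoc, ← pow_succ, Nat.sub_add_cancel hk]
  rw [Finset.sum_congr rfl fun i _ => h i, ← Finset.mul_sum, ← psum,
    Real.rpow_sub (psum_pos hb), Real.rpow_one, div_mul_cancel₀ _ (psum_pos hb).ne']

theorem root_pos : 0 < F a k (diagonal w) + a := by
  have h : F a k (diagonal w) + a = psum a k w ^ (1 / k : ℝ) := by
    rw [F, trPow_diagonal, sub_add_cancel]
  rw [h]
  exact Real.rpow_pos_of_pos (psum_pos hb) _

theorem root_pow (hk : 1 ≤ k) : (F a k (diagonal w) + a) ^ k = psum a k w := by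
  rw [F, trPow_diagonal, sub_add_cancel, one_div,
    Real.rpow_inv_natCast_pow (psum_pos hb).le (by omega)]

theorem shift_le_root (hk : 1 ≤ k) (i : Fin 3) : a - w i ≤ F a k (diagonal w) + a := by
  refine le_of_pow_le_pow_left₀ (n := k) (by omega) (root_pos hb).le ?_
  rw [root_pow hb hk]
  exact Finset.single_le_sum (f := fun j => (a - w j) ^ k)
    (fun j _ => pow_nonneg (hb j).le k) (Finset.mem_univ i)

theorem wt_eq (hk : 1 ≤ k) (i : Fin 3) :
    wt a k w i = ((a - w i) / (F a k (diagonal w) + a)) ^ (k - 1) := by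
  set M := F a k (diagonal w) + a with hM
  have hM0 : M ≠ 0 := (root_pos hb).ne'
  have h1 : psum a k w ^ (1 / k - 1 : ℝ) = M / M ^ k := by
    rw [hM, root_pow hb hk, Real.rpow_sub (psum_pos hb), Real.rpow_one, F, trPow_diagonal,
      sub_add_cancel]
  obtain ⟨m, rfl⟩ : ∃ m, k = m + 1 := ⟨k - 1, by omega⟩
  rw [wt, h1, div_pow, Nat.add_sub_cancel, pow_succ]
  field_simp

theorem one_le_sum_wt (hk : 1 ≤ k) : 1 ≤ ∑ i, wt a k w i := by
  simp only [wt_eq hb hk]
  have hM := root_pos (k := k) hb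
  have hsum : ∑ i, ((a - w i) / (F a k (diagonal w) + a)) ^ k = 1 := by
    simp only [div_pow, ← Finset.sum_div]
    rw [← psum, root_pow hb hk, div_self (psum_pos hb).ne']
  calc (1 : ℝ) = ∑ i, ((a - w i) / (F a k (diagonal w) + a)) ^ k := hsum.symm
    _ ≤ _ := Finset.sum_le_sum fun i _ => pow_le_pow_of_le_one (div_nonneg (hb i).le hM.le)
      ((div_le_one hM).2 (shift_le_root hb hk i)) (by omega)

theorem sum_wt_le (hk : 1 ≤ k) : ∑ i, wt a k w i ≤ 3 ^ (1 / k : ℝ) := by
  simp only [wt_eq hb hk]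
  have hM := root_pos (k := k) hb
  set u := fun i => (a - w i) / (F a k (diagonal w) + a) with hu
  have hu0 : ∀ i, 0 < u i := fun i => div_pos (hb i) hM
  have hsum : ∑ i, u i ^ k = 1 := by
    simp only [hu, div_pow, ← Finset.sum_div]
    rw [← psum, root_pow hb hk, div_self (psum_pos hb).ne']
  set c : ℝ := 3 ^ (1 / k : ℝ)
  have hc : 0 < c := Real.rpow_pos_of_pos (by norm_num) _
  have hck : c ^ k = 3 := by
    simp only [c, one_div]
    exact Real.rpow_inv_natCast_pow (by norm_num) (by omega)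
  have key : ∀ i, u i ^ (k - 1) * k ≤ c * (((k : ℝ) - 1) * u i ^ k + 1 / 3) := by
    intro i
    obtain ⟨m, rfl⟩ : ∃ m, k = m + 1 := ⟨k - 1, by omega⟩
    have hcu : 0 < c * u i := mul_pos hc (hu0 i)
    have h := one_add_mul_le_pow (a := 1 / (c * u i) - 1)
      (by linarith [one_div_pos.2 hcu]) (m + 1)
    rw [add_sub_cancel, div_pow, one_pow, mul_pow, hck, le_div_iff₀
      (mul_pos (by norm_num) (pow_pos (hu0 i) _))] at h
    have e : (1 + ((m + 1 : ℕ) : ℝ) * (1 / (c * u i) - 1)) * (3 * u i ^ (m + 1)) * c =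
        3 * (((m + 1 : ℕ) : ℝ) * u i ^ m - c * m * u i ^ (m + 1)) := by
      have hu' := (hu0 i).ne'
      push_cast
      rw [pow_succ]
      field_simp
      ring
    have h' := mul_le_mul_of_nonneg_right h hc.le
    rw [e] at h'
    push_cast [Nat.add_sub_cancel] at h' ⊢
    linarith
  have h := Finset.sum_le_sum fun i (_ : i ∈ Finset.univ) => key i
  rw [← Finset.sum_mul, ← Finset.mul_sum, Finset.sum_add_distrib, ← Finset.mul_sum, hsum,
    Finset.sum_const, Finset.card_univ, Fintype.card_fin] at h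
  have hk0 : (0 : ℝ) < k := Nat.cast_pos.2 (by omega)
  refine le_of_mul_le_mul_right (h.trans_eq ?_) hk0
  simp only [nsmul_eq_mul]
  push_cast
  ring

/-- The weighted value of `-W`. -/
theorem DF_self_eq (hk : 1 ≤ k) :
    DF a k (diagonal w) (diagonal w) =
      F a k (diagonal w) + a - a * ∑ i, wt a k w i := by
  rw [DF_diagonal, ← sum_wt_mul_shift hb hk, Finset.mul_sum, ← Finset.sum_sub_distrib,
    ← Finset.sum_neg_distrib]
  refine Finset.sum_congr rfl fun i _ => ?_
  rw [diagonal_apply_eq]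
  ring

end

end Vale.Agent.P211.Spectral
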